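import Mathlib.Order.Directed
import Mathlib.Data.Set.Lattice
import Mathlib.Logic.Relation
import Mathlib.Tactic

/-!
# Attachment theories

`P` is a set (of cells) with a relation `r y x` (`y` is a face of `x`).  `AttachTheory Lo Good Rel`:
axioms used to compare the stages of a filtration by down-sets.  The zigzag-connectedness instance,
and the instance which transports goodness upwards.
-/

namespace Vale.Agent.P203.Bot

open Set

/-- Down-sets of the relation `r`. -/
def Low {P : Type*} (r : P → P → Prop) (A : Set P) : Prop := ∀ x ∈ A, ∀ y, r y x → y ∈ A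

/-- Axioms for comparing the stages of a filtration by lower sets, obtained by attaching good
pieces along good or empty intersections. -/
structure AttachTheory {P : Type*} (Lo : Set P → Prop) (Good : Set P → Prop)
    (Rel : Set P → Set P → Prop) : Prop where
  rel_refl : ∀ A, Lo A → Rel A A
  rel_trans : ∀ A B D, Lo A → Lo B → Lo D → A.Nonempty → A ⊆ B → B ⊆ D →
    Rel A B → Rel B D → Rel A D
  attach : ∀ A B, Lo A → Lo B → A.Nonempty → Good B → Good (A ∩ B) → Rel A (A ∪ B)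
  disj : ∀ A B, Lo A → Lo B → A.Nonempty → A ∩ B = ∅ → Rel A (A ∪ B)
  rel_sUnion : ∀ (A : Set P) (B : Set (Set P)), Lo A → A.Nonempty → B.Nonempty →
    (∀ X ∈ B, Lo X) → DirectedOn (· ⊆ ·) B → (∀ X ∈ B, A ⊆ X) → (∀ X ∈ B, Rel A X) →
    (∀ X ∈ B, ∀ Y ∈ B, X ⊆ Y → Rel X Y) → Rel A (⋃₀ B)

section Zig

variable {P : Type*} (r : P → P → Prop)

/-- `x` and `y` are joined by a zigzag inside `Q`. -/
def Joined (Q : Set P) (x y : P) : Prop :=
  Relation.ReflTransGen (fun a b => a ∈ Q ∧ b ∈ Q ∧ (r a b ∨ r b a)) x y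

/-- Nonempty and connected. -/
def W0 (Q : Set P) : Prop := Q.Nonempty ∧ ∀ x ∈ Q, ∀ y ∈ Q, Joined r Q x y

/-- Injectivity on connected components. -/
def E0 (A B : Set P) : Prop := ∀ x ∈ A, ∀ y ∈ A, Joined r B x y → Joined r A x y

variable {r}

theorem Low.inter {A B : Set P} (hA : Low r A) (hB : Low r B) : Low r (A ∩ B) :=
  fun x hx y hy => ⟨hA x hx.1 y hy, hB x hx.2 y hy⟩

theorem Low.union {A B : Set P} (hA : Low r A) (hB : Low r B) : Low r (A ∪ B) := by
  rintro x (hx | hx) y hy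
  · exact Or.inl (hA x hx y hy)
  · exact Or.inr (hB x hx y hy)

theorem Joined.refl {Q : Set P} (x : P) : Joined r Q x x := Relation.ReflTransGen.refl

theorem Joined.trans {Q : Set P} {x y z : P} (h : Joined r Q x y) (h' : Joined r Q y z) :
    Joined r Q x z := Relation.ReflTransGen.trans h h'

theorem Joined.symm {Q : Set P} {x y : P} (h : Joined r Q x y) : Joined r Q y x := by
  unfold Joined at *
  induction h with
  | refl => exact Relation.ReflTransGen.refl
  | tail _ h2 ih => exact Relation.ReflTransGen.head ⟨h2.2.1, h2.1, h2.2.2.symm⟩ ih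

theorem Joined.mono {Q Q' : Set P} (hQ : Q ⊆ Q') {x y : P} (h : Joined r Q x y) :
    Joined r Q' x y := by
  unfold Joined at *
  induction h with
  | refl => exact Relation.ReflTransGen.refl
  | tail _ h2 ih => exact ih.tail ⟨hQ h2.1, hQ h2.2.1, h2.2.2⟩

theorem Joined.of_le {Q : Set P} {x y : P} (hx : x ∈ Q) (hy : y ∈ Q) (h : r x y) :
    Joined r Q x y := Relation.ReflTransGen.single ⟨hx, hy, Or.inl h⟩

theorem Joined.of_ge {Q : Set P} {x y : P} (hx : x ∈ Q) (hy : y ∈ Q) (h : r y x) :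
    Joined r Q x y := Relation.ReflTransGen.single ⟨hx, hy, Or.inr h⟩

theorem Joined.mem {Q : Set P} {x y : P} (h : Joined r Q x y) (hx : x ∈ Q) : y ∈ Q := by
  unfold Joined at h
  induction h with
  | refl => exact hx
  | tail _ h2 _ => exact h2.2.1

/-- A subset of `Q` which is closed under comparability within `Q` contains the component. -/
theorem Joined.mem_of_closed {Q C : Set P} {x y : P} (h : Joined r Q x y) (hx : x ∈ C)
    (hC : ∀ a ∈ C, a ∈ Q → ∀ b ∈ Q, r a b ∨ r b a → b ∈ C) : y ∈ C := by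
  unfold Joined at h
  induction h with
  | refl => exact hx
  | tail _ h2 ih => exact hC _ ih h2.1 _ h2.2.1 h2.2.2

theorem joined_sUnion {B : Set (Set P)} (hd : DirectedOn (· ⊆ ·) B) {x y : P}
    (h : Joined r (⋃₀ B) x y) (X : Set P) (hX : X ∈ B) :
    ∃ Y ∈ B, X ⊆ Y ∧ Joined r Y x y := by
  unfold Joined at h
  induction h with
  | refl => exact ⟨X, hX, Subset.rfl, Joined.refl _⟩
  | @tail b c _ h2 ih =>
    obtain ⟨Y, hY, hk1, hk2⟩ := ih
    obtain ⟨hb, hc, hbc⟩ := h2
    obtain ⟨p, hpB, hp⟩ := mem_sUnion.1 hb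
    obtain ⟨q, hqB, hq⟩ := mem_sUnion.1 hc
    obtain ⟨k1, hk1B, h1, h2⟩ := hd Y hY p hpB
    obtain ⟨k2, hk2B, h3, h4⟩ := hd k1 hk1B q hqB
    refine ⟨k2, hk2B, (hk1.trans h1).trans h3, (hk2.mono (h1.trans h3)).trans ?_⟩
    exact Relation.ReflTransGen.single ⟨h3 (h2 hp), h4 hq, hbc⟩

theorem W0.union {A B : Set P} (hA : W0 r A) (hB : W0 r B) (hAB : (A ∩ B).Nonempty) :
    W0 r (A ∪ B) := by
  obtain ⟨z, hzA, hzB⟩ := hAB
  refine ⟨⟨z, Or.inl hzA⟩, ?_⟩
  have key : ∀ x ∈ A ∪ B, Joined r (A ∪ B) x z := by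
    rintro x (hx | hx)
    · exact (hA.2 x hx z hzA).mono subset_union_left
    · exact (hB.2 x hx z hzB).mono subset_union_right
  intro x hx y hy
  exact (key x hx).trans (key y hy).symm

theorem W0.sUnion {B : Set (Set P)} (hne : B.Nonempty) (hd : DirectedOn (· ⊆ ·) B)
    (h : ∀ X ∈ B, W0 r X) : W0 r (⋃₀ B) := by
  obtain ⟨X0, hX0⟩ := hne
  refine ⟨?_, ?_⟩
  · obtain ⟨x, hx⟩ := (h X0 hX0).1
    exact ⟨x, mem_sUnion.2 ⟨_, hX0, hx⟩⟩
  · intro x hx y hy
    obtain ⟨p, hpB, hp⟩ := mem_sUnion.1 hx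
    obtain ⟨q, hqB, hq⟩ := mem_sUnion.1 hy
    obtain ⟨k, hkB, h1, h2⟩ := hd p hpB q hqB
    exact ((h k hkB).2 x (h1 hp) y (h2 hq)).mono (subset_sUnion_of_mem hkB)

/-- Attaching along a connected or empty intersection does not merge components. -/
theorem E0_union {A B : Set P} (hA : Low r A) (hB : Low r B)
    (h : ∀ x ∈ A ∩ B, ∀ y ∈ A ∩ B, Joined r A x y) : E0 r A (A ∪ B) := by
  intro x hx y hy hxy
  have key : ∀ z, Joined r (A ∪ B) x z → (z ∈ A → Joined r A x z) ∧
      (z ∈ B → z ∉ A → ∃ w ∈ A ∩ B, Joined r A x w) := by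
    intro z hz
    unfold Joined at hz
    induction hz with
    | refl => exact ⟨fun _ => Joined.refl _, fun _ h' => absurd hx h'⟩
    | @tail b c _ h2 ih =>
      obtain ⟨hb, hc, hbc⟩ := h2
      by_cases hbA : b ∈ A
      · have hxb := ih.1 hbA
        constructor
        · intro hcA
          exact hxb.trans (Relation.ReflTransGen.single ⟨hbA, hcA, hbc⟩)
        · intro hcB hcA
          refine ⟨b, ⟨hbA, ?_⟩, hxb⟩
          rcases hbc with h1 | h1
          · exact hB c hcB b h1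
          · exact absurd (hA b hbA c h1) hcA
      · have hbB : b ∈ B := hb.resolve_left hbA
        obtain ⟨w, hw, hxw⟩ := ih.2 hbB hbA
        constructor
        · intro hcA
          have hcB : c ∈ B := by
            rcases hbc with h1 | h1
            · exact absurd (hA c hcA b h1) hbA
            · exact hB b hbB c h1
          exact hxw.trans (h w hw c ⟨hcA, hcB⟩)
        · intro _ _
          exact ⟨w, hw, hxw⟩
  exact (key y hxy).1 hy

theorem E0.refl (A : Set P) : E0 r A A := fun _ _ _ _ h => h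

theorem E0.trans {A B D : Set P} (hAB : A ⊆ B) (h1 : E0 r A B) (h2 : E0 r B D) : E0 r A D :=
  fun x hx y hy h => h1 x hx y hy (h2 x (hAB hx) y (hAB hy) h)

theorem E0.W0 {A B : Set P} (hA : A.Nonempty) (hAB : A ⊆ B) (h : E0 r A B) (hB : W0 r B) :
    W0 r A :=
  ⟨hA, fun x hx y hy => h x hx y hy (hB.2 x (hAB hx) y (hAB hy))⟩

theorem E0_sUnion {B : Set (Set P)} (hd : DirectedOn (· ⊆ ·) B)
    (A X : Set P) (hX : X ∈ B) (h : ∀ Y ∈ B, X ⊆ Y → E0 r A Y) : E0 r A (⋃₀ B) := by
  intro x hx y hy hxy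
  obtain ⟨Y, hY, hk1, hk2⟩ := joined_sUnion hd hxy X hX
  exact h Y hY hk1 x hx y hy hk2

theorem not_W0_union {A B : Set P} (hA : Low r A) (hB : Low r B) (hAn : A.Nonempty)
    (hBn : B.Nonempty) (h : A ∩ B = ∅) : ¬ W0 r (A ∪ B) := by
  rintro ⟨-, hW⟩
  obtain ⟨a, ha⟩ := hAn
  obtain ⟨b, hb⟩ := hBn
  have h1 := hW a (Or.inl ha) b (Or.inr hb)
  have : b ∈ A := by
    refine h1.mem_of_closed ha ?_
    rintro c hc - d hd hcd
    rcases hd with hd | hd
    · exact hd
    · rcases hcd with h2 | h2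
      · exact absurd (show c ∈ A ∩ B from ⟨hc, hB d hd c h2⟩) (by rw [h]; exact notMem_empty _)
      · exact hA c hc d h2
  exact absurd (show b ∈ A ∩ B from ⟨this, hb⟩) (by rw [h]; exact notMem_empty _)

/-- The instance of connectedness. -/
theorem attachTheory_zig {Lo : Set P → Prop} (hLo : ∀ A, Lo A → Low r A) :
    AttachTheory Lo (W0 r) (E0 r) where
  rel_refl A _ := E0.refl A
  rel_trans A B D _ _ _ _ h1 _ h2 h3 := h2.trans h1 h3
  attach A B hA hB _ _ h :=
    E0_union (hLo A hA) (hLo B hB) fun x hx y hy => (h.2 x hx y hy).mono inter_subset_left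
  disj A B hA hB _ h :=
    E0_union (hLo A hA) (hLo B hB) fun x hx y _ => by
      rw [h] at hx; exact absurd hx (notMem_empty _)
  rel_sUnion A B _ _ hne _ hd _ h1 _ := by
    obtain ⟨X0, hX0⟩ := hne
    exact E0_sUnion hd A X0 hX0 fun Y hY _ => h1 Y hY

variable (r)

/-- The relation which transports goodness upwards. -/
def FRel (W : Set P → Prop) (A B : Set P) : Prop := E0 r A B ∧ (W A → W B ∨ ¬ W0 r B)

variable {r}

theorem attachTheory_up {Lo : Set P → Prop} (hLo : ∀ A, Lo A → Low r A)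
    (hint : ∀ A B, Lo A → Lo B → Lo (A ∩ B))
    {W : Set P → Prop} (hW0 : ∀ A, Lo A → W A → W0 r A)
    (hun : ∀ A B, Lo A → Lo B → W A → W B → W (A ∩ B) → W (A ∪ B))
    (hdir : ∀ B : Set (Set P), B.Nonempty → DirectedOn (· ⊆ ·) B → (∀ X ∈ B, Lo X) →
      (∀ X ∈ B, W X) → W (⋃₀ B)) : AttachTheory Lo W (FRel r W) where
  rel_refl A _ := ⟨E0.refl A, fun h => Or.inl h⟩
  rel_trans A B D _ _ _ hne h1 _ h2 h3 := by
    refine ⟨h2.1.trans h1 h3.1, fun hA => ?_⟩
    rcases h2.2 hA with h | h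
    · exact h3.2 h
    · exact Or.inr fun hD => h (h3.1.W0 (hne.mono h1) (by assumption) hD)
  attach A B hA hB _ hBg h :=
    ⟨E0_union (hLo A hA) (hLo B hB) fun x hx y hy =>
      ((hW0 _ (hint A B hA hB) h).2 x hx y hy).mono inter_subset_left,
      fun hAg => Or.inl (hun A B hA hB hAg hBg h)⟩
  disj A B hA hB hAn h := by
    refine ⟨E0_union (hLo A hA) (hLo B hB) fun x hx y _ => by
      rw [h] at hx; exact absurd hx (notMem_empty _), fun hAg => ?_⟩
    rcases B.eq_empty_or_nonempty with rfl | hBn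
    · rw [union_empty]; exact Or.inl hAg
    · exact Or.inr (not_W0_union (hLo A hA) (hLo B hB) hAn hBn h)
  rel_sUnion A B hA hAn hne hB hd hAB h1 h2 := by
    obtain ⟨X0, hX0⟩ := hne
    refine ⟨E0_sUnion hd A X0 hX0 fun Y hY _ => (h1 Y hY).1, fun hAg => ?_⟩
    by_cases hall : ∀ X ∈ B, W X
    · exact Or.inl (hdir B ⟨X0, hX0⟩ hd hB hall)
    · push Not at hall
      obtain ⟨X, hX, hXW⟩ := hall
      refine Or.inr fun h => ?_
      have h3 : ¬ W0 r X := ((h1 X hX).2 hAg).resolve_left hXW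
      exact h3 ((E0_sUnion hd X X hX fun Y hY hXY => (h2 X hX Y hY hXY).1).W0
        (hAn.mono (hAB X hX)) (subset_sUnion_of_mem hX) h)

/-- If goodness is transported from `A` to the connected set `B`. -/
theorem FRel.good {W : Set P → Prop} {A B : Set P} (h : FRel r W A B) (hA : W A) (hB : W0 r B) :
    W B := (h.2 hA).resolve_right (not_not.2 hB)

/-- Connectedness from disjointness axioms. -/
theorem W0_of_not_disjoint {Good : Set P → Prop} {D : Set P}
    (hne : D.Nonempty) (hD : Low r D)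
    (hconn : ∀ A B, Low r A → Low r B → A.Nonempty → B.Nonempty → Disjoint A B →
      ¬ Good (A ∪ B)) (h : Good D) : W0 r D := by
  refine ⟨hne, fun x hx y hy => ?_⟩
  by_contra hxy
  refine hconn {z | z ∈ D ∧ Joined r D x z} {z | z ∈ D ∧ ¬ Joined r D x z} ?_ ?_
    ⟨x, hx, Joined.refl _⟩ ⟨y, hy, hxy⟩ ?_ ?_
  · rintro a ⟨ha, hxa⟩ b hba
    exact ⟨hD a ha b hba, hxa.trans (Joined.of_ge ha (hD a ha b hba) hba)⟩
  · rintro a ⟨ha, hxa⟩ b hba
    exact ⟨hD a ha b hba, fun hxb => hxa (hxb.trans (Joined.of_le (hD a ha b hba) ha hba))⟩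
  · rw [Set.disjoint_left]
    rintro z ⟨_, hz⟩ ⟨_, hz'⟩
    exact hz' hz
  · convert h using 1
    ext z
    constructor
    · rintro (h | h) <;> exact h.1
    · intro hz
      by_cases hz' : Joined r D x z
      · exact Or.inl ⟨hz, hz'⟩
      · exact Or.inr ⟨hz, hz'⟩

end Zig

end Vale.Agent.P203.Bot
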