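import Vale.Agent.P203.Bot.Attach
import Vale.Agent.P203.Morse.Defs

/-!
# The base simplex

For a framed key system the set of negative vertices is the base simplex.
-/

namespace Vale.Agent.P203.Bot

open Set Vale.Agent.P203.Morse

variable {S A : Type} [Fintype S] [DecidableEq S] [Group A]

/-- Face relation on cells: `face D y x` means that `y` is a face of `x`, up to `A_T`. -/
def face (D : Data S A) (y x : A × Finset S) : Prop := y.2 ⊆ x.2 ∧ x.1⁻¹ * y.1 ∈ Par D x.2

theorem low_of_sat {D : Data S A} {X : Set (A × Finset S)} (h : Sat D X) : Low (face D) X := by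
  rintro ⟨g, T⟩ hx ⟨g', T'⟩ ⟨h1, h2⟩
  exact (h g T hx).2 g' T' h1 h2

theorem sat_inter {D : Data S A} {X Y : Set (A × Finset S)} (hX : Sat D X) (hY : Sat D Y) :
    Sat D (X ∩ Y) := fun h T hT =>
  ⟨(hX h T hT.1).1, fun h' T' h1 h2 => ⟨(hX h T hT.1).2 h' T' h1 h2, (hY h T hT.2).2 h' T' h1 h2⟩⟩

theorem sat_union {D : Data S A} {X Y : Set (A × Finset S)} (hX : Sat D X) (hY : Sat D Y) :
    Sat D (X ∪ Y) := by
  rintro h T (hT | hT)
  · exact ⟨(hX h T hT).1, fun h' T' h1 h2 => Or.inl ((hX h T hT).2 h' T' h1 h2)⟩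
  · exact ⟨(hY h T hT).1, fun h' T' h1 h2 => Or.inr ((hY h T hT).2 h' T' h1 h2)⟩

theorem Par_mono (D : Data S A) {U V : Finset S} (h : U ⊆ V) : Par D U ≤ Par D V :=
  Subgroup.closure_mono (Set.image_mono (by exact_mod_cast h))

theorem sat_Q (D : Data S A) (a : A) (U : Finset S) : Sat D (Q D a U) := by
  rintro h T ⟨h1, h2, h3⟩
  refine ⟨h3, fun h' T' hT' hh' => ⟨?_, hT'.trans h2, D.sph_mono hT' h3⟩⟩
  have : a⁻¹ * h' = (a⁻¹ * h) * (h⁻¹ * h') := by group
  rw [this]
  exact mul_mem h1 (Par_mono D h2 hh')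

variable {D : Data S A} (K : Key D)

theorem F_par (K : Key D) {h h' : A} {t : S} {T : Finset S} (ht : t ∉ T) (hh : h⁻¹ * h' ∈ Par D T)
    (n : ℤ) : K.F h' n t = K.F h n t := by
  have key : ∀ x ∈ Par D T, ∀ g : A, K.F (g * x) n t = K.F g n t := by
    intro x hx
    induction hx using Subgroup.closure_induction with
    | mem x hx =>
      obtain ⟨s, hs, rfl⟩ := hx
      intro g
      refine K.F_mul g n t s ?_
      rintro rfl
      exact ht (by simpa using hs)
    | one => intro g; rw [mul_one]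
    | mul x y _ _ hx hy => intro g; rw [← mul_assoc, hy, hx]
    | inv x _ hx => intro g; rw [← hx (g * x⁻¹)]; simp
  have : h' = h * (h⁻¹ * h') := by group
  rw [this, key _ hh]

/-- The negative set for the constant threshold `ε` in degree `0`. -/
def NegE (a : A) (U : Finset S) (ε : ℝ) : Set (A × S) := Neg K a U (fun _ => 0) (fun _ => ε)

theorem mem_NegE {a : A} {U : Finset S} {ε : ℝ} {p : A × S} :
    p ∈ NegE K a U ε ↔ a⁻¹ * p.1 ∈ Par D U ∧ p.2 ∈ U ∧ (∀ m > 0, K.F p.1 m p.2 = 0) ∧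
      K.F p.1 0 p.2 < ε := Iff.rfl

theorem isCls_framed {a : A} (hK : Framed K a) {ε : ℝ} (hε : ∀ r, 2 * ε ≤ K.w0 0 r)
    (U : Finset S) (hD : 0 ≤ ε) : IsCls K a U (fun _ => 0) (fun _ => ε) where
  n_const _ _ _ _ _ _ := rfl
  ext_zero r _ m hm := hK.w0_pos m hm r
  out_zero r _ s _ _ m _ := hK.F_base m s
  ineq r _ := by
    have h2 : 0 ≤ ∑ t ∈ Finset.univ.erase r, D.c r t * (if t ∈ U then ε else K.F a 0 t) := by
      refine Finset.sum_nonneg fun t ht => mul_nonneg (D.c_nonneg r t ?_) ?_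
      · exact (Finset.ne_of_mem_erase ht).symm
      · split_ifs
        · exact hD
        · exact K.F_nonneg _ _ _
    have := hε r
    change 2 * ε ≤ K.w0 0 r + _
    linarith

theorem base_mem {a : A} (hK : Framed K a) {ε : ℝ} (hε : 0 < ε) {U : Finset S} {h : A} {t : S}
    (ht : t ∈ U) (hh : a⁻¹ * h ∈ Par D (U.erase t)) : (h, t) ∈ NegE K a U ε := by
  refine ⟨Par_mono D (Finset.erase_subset _ _) hh, ht, fun m _ => ?_, ?_⟩
  · rw [show K.F h m t = K.F a m t from F_par K (Finset.notMem_erase t U) hh m]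
    exact hK.F_base m t
  · change K.F h 0 t < ε
    rw [F_par K (Finset.notMem_erase t U) hh 0, hK.F_base 0 t]
    exact hε

/-- **The base simplex.** -/
theorem base_simplex {a : A} (hK : Framed K a) {ε : ℝ} (hε : 0 < ε)
    (hconn : ∀ U : Finset S, W0 (face D) (XX D a U (NegE K a U ε)) ∨ U = ∅) :
    ∀ (n : ℕ) (U : Finset S), U.card ≤ n → ∀ p ∈ NegE K a U ε,
      a⁻¹ * p.1 ∈ Par D (U.erase p.2) := by
  intro n
  induction n with
  | zero =>
    intro U hU p hp
    have : U = ∅ := Finset.card_eq_zero.1 (Nat.le_zero.1 hU)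
    rw [this] at hp
    exact absurd hp.2.1 (Finset.notMem_empty _)
  | succ n ih =>
    rintro U hU ⟨h, t⟩ hp
    have ht : t ∈ U := hp.2.1
    have hW := (hconn U).resolve_right (Finset.ne_empty_of_mem ht)
    -- the closed subset
    let B : Set (A × Finset S) :=
      {x | x ∈ Q D a U ∧ ∃ t ∈ U, t ∉ x.2 ∧ a⁻¹ * x.1 ∈ Par D (U.erase t)}
    have hBcl : ∀ x ∈ B, x ∈ XX D a U (NegE K a U ε) → ∀ y ∈ XX D a U (NegE K a U ε),
        face D x y ∨ face D y x → y ∈ B := by
      rintro x ⟨hxQ, s, hs, hsx, hax⟩ - y hy hxy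
      have hyQ : y ∈ Q D a U := ⟨hy.1, hy.2.1, hy.2.2.1⟩
      refine ⟨hyQ, ?_⟩
      rcases hxy with h1 | h1
      · -- `x` is a face of `y`
        obtain ⟨hyP, hyU, hyS, s', hs', hs'y, hneg⟩ := hy
        by_cases hss : s' = s
        · subst hss
          refine ⟨s', hs, hs'y, ?_⟩
          have : a⁻¹ * y.1 = (a⁻¹ * x.1) * (y.1⁻¹ * x.1)⁻¹ := by group
          rw [this]
          refine mul_mem hax (inv_mem ?_)
          refine Par_mono D ?_ h1.2
          intro u hu
          exact Finset.mem_erase.2 ⟨fun h => hs'y (h ▸ hu), hyU hu⟩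
        · have hFe : ∀ m, K.F x.1 m s' = K.F y.1 m s' := fun m => F_par K hs'y h1.2 m
          have hmem : (x.1, s') ∈ NegE K a (U.erase s) ε := by
            refine ⟨hax, Finset.mem_erase.2 ⟨hss, hs'⟩, fun m hm => ?_, ?_⟩
            · change K.F x.1 m s' = 0
              rw [hFe m]; exact hneg.2.2.1 m hm
            · change K.F x.1 0 s' < ε
              rw [hFe 0]; exact hneg.2.2.2
          have hcard : (U.erase s).card ≤ n := by
            rw [Finset.card_erase_of_mem hs]; omega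
          have h3 := ih (U.erase s) hcard _ hmem
          refine ⟨s', hs', hs'y, ?_⟩
          have : a⁻¹ * y.1 = (a⁻¹ * x.1) * (y.1⁻¹ * x.1)⁻¹ := by group
          rw [this]
          refine mul_mem (Par_mono D ?_ h3) (inv_mem (Par_mono D ?_ h1.2))
          · intro u hu
            have h5 := Finset.mem_erase.1 hu
            exact Finset.mem_erase.2 ⟨h5.1, (Finset.mem_erase.1 h5.2).2⟩
          · intro u hu
            exact Finset.mem_erase.2 ⟨fun h => hs'y (h ▸ hu), hyU hu⟩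
      · -- `y` is a face of `x`
        refine ⟨s, hs, fun h => hsx (h1.1 h), ?_⟩
        have : a⁻¹ * y.1 = (a⁻¹ * x.1) * (x.1⁻¹ * y.1) := by group
        rw [this]
        refine mul_mem hax (Par_mono D ?_ h1.2)
        intro u hu
        exact Finset.mem_erase.2 ⟨fun h => hsx (h ▸ hu), hxQ.2.1 hu⟩
    have hx0 : ((a, ∅) : A × Finset S) ∈ XX D a U (NegE K a U ε) := by
      refine ⟨by simp [one_mem], Finset.empty_subset _, D.sph_empty, t, ht,
        Finset.notMem_empty _, ?_⟩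
      exact base_mem K hK hε ht (by simp [one_mem])
    have hx0B : ((a, ∅) : A × Finset S) ∈ B :=
      ⟨⟨by simp [one_mem], Finset.empty_subset _, D.sph_empty⟩, t, ht, Finset.notMem_empty _,
        by simp [one_mem]⟩
    have hh0 : ((h, ∅) : A × Finset S) ∈ XX D a U (NegE K a U ε) :=
      ⟨hp.1, Finset.empty_subset _, D.sph_empty, t, ht, Finset.notMem_empty _, hp⟩
    have hhB : ((h, ∅) : A × Finset S) ∈ B :=
      (hW.2 _ hx0 _ hh0).mem_of_closed hx0B hBcl
    obtain ⟨-, s, hs, -, has⟩ := hhB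
    by_cases hst : s = t
    · subst hst; exact has
    · have hmem : (h, t) ∈ NegE K a (U.erase s) ε :=
        ⟨has, Finset.mem_erase.2 ⟨fun h => hst h.symm, ht⟩, hp.2.2.1, hp.2.2.2⟩
      have h3 := ih (U.erase s) (by rw [Finset.card_erase_of_mem hs]; omega) _ hmem
      refine Par_mono D ?_ h3
      intro u hu
      have h5 := Finset.mem_erase.1 hu
      exact Finset.mem_erase.2 ⟨h5.1, (Finset.mem_erase.1 h5.2).2⟩

/-- The cells of `Q a U` lying in one of the `Q a (U - t)`, `t ∈ J`. -/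
def BJ (D : Data S A) (a : A) (U J : Finset S) : Set (A × Finset S) :=
  {x | x.2 ⊆ U ∧ D.Sph x.2 ∧ ∃ t ∈ J, t ∉ x.2 ∧ a⁻¹ * x.1 ∈ Par D (U.erase t)}

theorem sat_BJ (D : Data S A) (a : A) (U J : Finset S) : Sat D (BJ D a U J) := by
  rintro h T ⟨h2, h3, t, htJ, htT, hat⟩
  refine ⟨h3, fun h' T' hT' hh' => ⟨hT'.trans h2, D.sph_mono hT' h3, t, htJ,
    fun h => htT (hT' h), ?_⟩⟩
  have : a⁻¹ * h' = (a⁻¹ * h) * (h⁻¹ * h') := by group
  rw [this]
  refine mul_mem hat (Par_mono D ?_ hh')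
  intro u hu
  exact Finset.mem_erase.2 ⟨fun h => htT (h ▸ hu), h2 hu⟩

theorem XX_eq_BJ {a : A} (hK : Framed K a) {ε : ℝ} (hε : 0 < ε) {U : Finset S}
    (hbase : ∀ p ∈ NegE K a U ε, a⁻¹ * p.1 ∈ Par D (U.erase p.2)) :
    XX D a U (NegE K a U ε) = BJ D a U U := by
  apply Set.Subset.antisymm
  · intro x hx
    obtain ⟨_, h2, h3, t, ht, htx, hneg⟩ := hx
    exact ⟨h2, h3, t, ht, htx, hbase (x.1, t) hneg⟩
  · intro x hx
    obtain ⟨h2, h3, t, ht, htx, hat⟩ := hx
    exact ⟨Par_mono D (Finset.erase_subset t U) hat, h2, h3, t, ht, htx,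
      base_mem K hK hε ht hat⟩

/-- Mayer-Vietoris for the base simplex. -/
theorem good_BJ {a : A} (hK : Framed K a) {ε : ℝ} (hε : 0 < ε)
    (hbase : ∀ U, ∀ p ∈ NegE K a U ε, a⁻¹ * p.1 ∈ Par D (U.erase p.2))
    {W : Set (A × Finset S) → Prop}
    (hun : ∀ X Y, Sat D X → Sat D Y → W X → W Y → W (X ∩ Y) → W (X ∪ Y)) (J : Finset S) :
    J.Nonempty → ∀ U, J ⊆ U → (∀ V, V ⊂ U → W (Q D a V)) → W (BJ D a U J) := by
  induction J using Finset.induction_on with
  | empty => intro h; exact absurd h (Finset.not_nonempty_empty)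
  | @insert t0 J ht0 ih =>
    intro _ U hJU hV
    have ht0U : t0 ∈ U := hJU (Finset.mem_insert_self _ _)
    have hQ : W (Q D a (U.erase t0)) := hV _ (Finset.erase_ssubset ht0U)
    have hQeq : ∀ x : A × Finset S, x ∈ Q D a (U.erase t0) ↔
        x.2 ⊆ U ∧ D.Sph x.2 ∧ t0 ∉ x.2 ∧ a⁻¹ * x.1 ∈ Par D (U.erase t0) := by
      intro x
      constructor
      · rintro ⟨h1, h2, h3⟩
        exact ⟨h2.trans (Finset.erase_subset _ _), h3,
          fun h => Finset.notMem_erase t0 U (h2 h), h1⟩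
      · rintro ⟨h2, h3, h4, h1⟩
        exact ⟨h1, fun u hu => Finset.mem_erase.2 ⟨fun h => h4 (h ▸ hu), h2 hu⟩, h3⟩
    have hsplit : BJ D a U (insert t0 J) = BJ D a U J ∪ Q D a (U.erase t0) := by
      ext x
      rw [mem_union, hQeq]
      constructor
      · rintro ⟨h2, h3, t, ht, htx, hat⟩
        rcases Finset.mem_insert.1 ht with rfl | ht
        · exact Or.inr ⟨h2, h3, htx, hat⟩
        · exact Or.inl ⟨h2, h3, t, ht, htx, hat⟩
      · rintro (⟨h2, h3, t, ht, htx, hat⟩ | ⟨h2, h3, htx, hat⟩)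
        · exact ⟨h2, h3, t, Finset.mem_insert_of_mem ht, htx, hat⟩
        · exact ⟨h2, h3, t0, Finset.mem_insert_self _ _, htx, hat⟩
    rcases J.eq_empty_or_nonempty with rfl | hJ
    · have : BJ D a U ∅ = ∅ := by
        ext x
        constructor
        · rintro ⟨_, _, t, ht, _⟩; exact absurd ht (Finset.notMem_empty _)
        · intro h; exact absurd h (notMem_empty _)
      rw [hsplit, this, empty_union]
      exact hQ
    · have hJU' : J ⊆ U := (Finset.subset_insert _ _).trans hJU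
      have h1 : W (BJ D a U J) := ih hJ U hJU' hV
      have hJe : J ⊆ U.erase t0 := fun t ht =>
        Finset.mem_erase.2 ⟨fun h => ht0 (h ▸ ht), hJU' ht⟩
      have h2 : W (BJ D a (U.erase t0) J) := ih hJ _ hJe fun V hVU =>
        hV V (hVU.trans_subset (Finset.erase_subset _ _))
      have hint : BJ D a U J ∩ Q D a (U.erase t0) = BJ D a (U.erase t0) J := by
        ext x
        rw [mem_inter_iff, hQeq]
        constructor
        · rintro ⟨⟨_, _, t, ht, htx, hat⟩, h2, h3, h4, h5⟩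
          refine ⟨fun u hu => Finset.mem_erase.2 ⟨fun h => h4 (h ▸ hu), h2 hu⟩, h3, t, ht, htx, ?_⟩
          have hb := base_mem K hK hε (hJU' ht) hat
          exact hbase (U.erase t0) (x.1, t) ⟨h5, hJe ht, hb.2.2.1, hb.2.2.2⟩
        · rintro ⟨h2, h3, t, ht, htx, hat⟩
          refine ⟨⟨h2.trans (Finset.erase_subset _ _), h3, t, ht, htx, Par_mono D ?_ hat⟩,
            h2.trans (Finset.erase_subset _ _), h3, fun h => Finset.notMem_erase t0 U (h2 h),
            Par_mono D (Finset.erase_subset _ _) hat⟩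
          intro u hu
          have h5 := Finset.mem_erase.1 hu
          exact Finset.mem_erase.2 ⟨h5.1, (Finset.mem_erase.1 h5.2).2⟩
      rw [hsplit]
      exact hun _ _ (sat_BJ D a U J) (sat_Q D a _) h1 hQ (by rw [hint]; exact h2)

/-- The union of the base simplex is good. -/
theorem good_base {a : A} (hK : Framed K a) {ε : ℝ} (hε : 0 < ε)
    (hconn : ∀ U : Finset S, W0 (face D) (XX D a U (NegE K a U ε)) ∨ U = ∅)
    {W : Set (A × Finset S) → Prop}
    (hun : ∀ X Y, Sat D X → Sat D Y → W X → W Y → W (X ∩ Y) → W (X ∪ Y)) (U : Finset S)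
    (hU : U.Nonempty) (hV : ∀ V, V ⊂ U → W (Q D a V)) : W (XX D a U (NegE K a U ε)) := by
  have hbase : ∀ U, ∀ p ∈ NegE K a U ε, a⁻¹ * p.1 ∈ Par D (U.erase p.2) := fun U =>
    base_simplex K hK hε hconn U.card U le_rfl
  rw [XX_eq_BJ K hK hε (hbase U)]
  exact good_BJ K hK hε hbase hun U hU U subset_rfl hV

end Vale.Agent.P203.Bot
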