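import Vale.Agent.P203.Bot.Base
import Vale.Agent.P203.Morse.Basic

/-!
# The base simplex, from connectedness on the graph level
-/

namespace Vale.Agent.P203.Bot

open Set Vale.Agent.P203.Morse

variable {S A : Type} [Fintype S] [DecidableEq S] [Group A]

variable {D : Data S A} (K : Key D)

theorem erase_erase_subset {U : Finset S} (s t : S) : (U.erase s).erase t ⊆ U.erase t := by
  intro u hu
  have h5 := Finset.mem_erase.1 hu
  exact Finset.mem_erase.2 ⟨h5.1, (Finset.mem_erase.1 h5.2).2⟩

/-- **The base simplex**, from connectedness of the negative sets. -/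
theorem base_simplex_graph {a : A} (hK : Framed K a) {ε : ℝ} (hε : 0 < ε)
    (hconn : ∀ U : Finset S, Connected D U (NegE K a U ε)) :
    ∀ (n : ℕ) (U : Finset S), U.card ≤ n → ∀ p ∈ NegE K a U ε,
      a⁻¹ * p.1 ∈ Par D (U.erase p.2) := by
  intro n
  induction n with
  | zero =>
    intro U hU p hp
    have : U = ∅ := Finset.card_eq_zero.1 (Nat.le_zero.1 hU)
    rw [this] at hp
    exact absurd hp.2.1 (Finset.notMem_empty _)
  | succ n ih =>
    rintro U hU ⟨h, t⟩ hp
    have ht : t ∈ U := hp.2.1
    have hp0 : ((a, t) : A × S) ∈ NegE K a U ε := base_mem K hK hε ht (by simp [one_mem])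
    have key : ∀ q, Reach D U (NegE K a U ε) (a, t) q → a⁻¹ * q.1 ∈ Par D (U.erase q.2) := by
      intro q hq
      unfold Reach at hq
      induction hq with
      | refl => simp [one_mem]
      | @tail b c _ hbc ihb =>
        obtain ⟨hb, hc, h1 | h1⟩ := hbc
        · obtain ⟨h2, h3⟩ := h1
          rw [← h2]
          have : a⁻¹ * c.1 = (a⁻¹ * b.1) * (b.1⁻¹ * c.1) := by group
          rw [this]
          exact mul_mem ihb h3
        · by_cases h2 : b.2 = c.2
          · rw [← h2, ← h1]; exact ihb
          · rw [h1] at ihb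
            have hmem : c ∈ NegE K a (U.erase b.2) ε :=
              ⟨ihb, Finset.mem_erase.2 ⟨fun h => h2 h.symm, hc.2.1⟩, hc.2.2.1, hc.2.2.2⟩
            have h3 := ih (U.erase b.2) (by
              rw [Finset.card_erase_of_mem hb.2.1]; omega) c hmem
            exact Vale.Agent.P203.Bot.Par_mono D (erase_erase_subset _ _) h3
    exact key (h, t) (hconn U _ hp0 _ hp)

/-- The union of the base simplex is good. -/
theorem good_base_graph {a : A} (hK : Framed K a) {ε : ℝ} (hε : 0 < ε)
    (hconn : ∀ U : Finset S, Connected D U (NegE K a U ε))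
    {W : Set (A × Finset S) → Prop}
    (hun : ∀ X Y, Sat D X → Sat D Y → W X → W Y → W (X ∩ Y) → W (X ∪ Y)) (U : Finset S)
    (hU : U.Nonempty) (hV : ∀ V, V ⊂ U → W (Q D a V)) : W (XX D a U (NegE K a U ε)) := by
  have hbase : ∀ U, ∀ p ∈ NegE K a U ε, a⁻¹ * p.1 ∈ Par D (U.erase p.2) := fun U =>
    base_simplex_graph K hK hε hconn U.card U le_rfl
  rw [XX_eq_BJ K hK hε (hbase U)]
  exact good_BJ K hK hε hbase hun U hU U subset_rfl hV

end Vale.Agent.P203.Bot
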