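import Vale.Agent.P203.Bot.BaseG
import Vale.Agent.P203.Morse.Lift

/-!
# Attaching all the vertices of one type
-/

namespace Vale.Agent.P203.Bot

open Set Vale.Agent.P203.Morse

variable {S A : Type} [Fintype S] [DecidableEq S] [Group A] {D : Data S A}

theorem subset_erase {T U : Finset S} {t : S} (h : T ⊆ U) (ht : t ∉ T) : T ⊆ U.erase t :=
  fun _ hu => Finset.mem_erase.2 ⟨fun h' => ht (h' ▸ hu), h hu⟩

theorem sat_XX {a : A} {U : Finset S} {X : Set (A × S)} (hX : Stable D a U X) :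
    Sat D (XX D a U X) := by
  intro h T hx
  obtain ⟨h1, h2, h3, t, ht, htT, hp⟩ := hx
  refine ⟨h3, fun h' T' hT' hh' => ⟨coset_trans h1 (Morse.Par_mono D h2 hh'), hT'.trans h2,
    D.sph_mono hT' h3, t, ht, fun h => htT (hT' h), ?_⟩⟩
  exact (hX h t hp).2.2 h' (Morse.Par_mono D (subset_erase h2 htT) hh')

theorem XX_mono {a : A} {U : Finset S} {X Y : Set (A × S)} (h : X ⊆ Y) :
    XX D a U X ⊆ XX D a U Y := by
  intro x hx
  obtain ⟨h1, h2, h3, t, ht, htT, hp⟩ := hx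
  exact ⟨h1, h2, h3, t, ht, htT, h hp⟩

theorem XX_subset_Q {a : A} {U : Finset S} {X : Set (A × S)} : XX D a U X ⊆ Q D a U :=
  fun _ hx => ⟨hx.1, hx.2.1, hx.2.2.1⟩

theorem XX_iUnion {ι : Type*} {a : A} {U : Finset S} {X : ι → Set (A × S)} :
    XX D a U (⋃ i, X i) = ⋃ i, XX D a U (X i) := by
  apply Set.Subset.antisymm
  · intro x hx
    obtain ⟨h1, h2, h3, t, ht, htT, hp⟩ := hx
    obtain ⟨i, hi⟩ := mem_iUnion.1 hp
    exact mem_iUnion.2 ⟨i, h1, h2, h3, t, ht, htT, hi⟩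
  · intro x hx
    obtain ⟨i, h1, h2, h3, t, ht, htT, hp⟩ := mem_iUnion.1 hx
    exact ⟨h1, h2, h3, t, ht, htT, mem_iUnion.2 ⟨i, hp⟩⟩

/-- The intersection with the subcomplex of a new vertex. -/
theorem XX_inter_Q {a g : A} {U : Finset S} {X : Set (A × S)} {t : S} (hX : Stable D a U X)
    (hg : a⁻¹ * g ∈ Par D U) (ht : t ∈ U) (hgt : (g, t) ∉ X) :
    XX D a U X ∩ Q D g (U.erase t) = XX D g (U.erase t) X := by
  apply Set.Subset.antisymm
  · rintro x ⟨hx, hx1, hx2, hx3⟩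
    obtain ⟨h1, h2, h3, s, hs, hsT, hp⟩ := hx
    refine ⟨hx1, hx2, hx3, s, Finset.mem_erase.2 ⟨?_, hs⟩, hsT, hp⟩
    rintro rfl
    exact hgt ((hX x.1 s hp).2.2 g (coset_symm hx1))
  · intro x hx
    obtain ⟨h1, h2, h3, s, hs, hsT, hp⟩ := hx
    exact ⟨⟨coset_trans hg (Par_erase_le D U t h1), h2.trans (Finset.erase_subset _ _), h3, s,
      Finset.mem_of_mem_erase hs, hsT, hp⟩, h1, h2, h3⟩

/-- `X0` with the pieces `Q g V`, `g ∈ G`. -/
def PU (D : Data S A) (X0 : Set (A × Finset S)) (V : Finset S) (G : Set A) :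
    Set (A × Finset S) := X0 ∪ {x | ∃ g ∈ G, x ∈ Q D g V}

theorem sat_PU {X0 : Set (A × Finset S)} (h0 : Sat D X0) (V : Finset S) (G : Set A) :
    Sat D (PU D X0 V G) := by
  rintro h T (hx | ⟨g, hg, hx⟩)
  · exact ⟨(h0 h T hx).1, fun h' T' h1 h2 => Or.inl ((h0 h T hx).2 h' T' h1 h2)⟩
  · have := sat_Q D g V h T hx
    exact ⟨this.1, fun h' T' h1 h2 => Or.inr ⟨g, hg, this.2 h' T' h1 h2⟩⟩

theorem PU_mono {X0 : Set (A × Finset S)} {V : Finset S} {G G' : Set A} (h : G ⊆ G') :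
    PU D X0 V G ⊆ PU D X0 V G' := by
  rintro x (hx | ⟨g, hg, hx⟩)
  · exact Or.inl hx
  · exact Or.inr ⟨g, h hg, hx⟩

theorem subset_PU {X0 : Set (A × Finset S)} {V : Finset S} {G : Set A} : X0 ⊆ PU D X0 V G :=
  subset_union_left

theorem PU_empty {X0 : Set (A × Finset S)} {V : Finset S} : PU D X0 V ∅ = X0 := by
  apply Set.Subset.antisymm
  · rintro x (hx | ⟨g, hg, hx⟩)
    · exact hx
    · exact absurd hg (notMem_empty _)
  · exact subset_PU

theorem PU_insert {X0 : Set (A × Finset S)} {V : Finset S} {G : Set A} {g : A} :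
    PU D X0 V (insert g G) = PU D X0 V G ∪ Q D g V := by
  apply Set.Subset.antisymm
  · rintro x (hx | ⟨g', hg', hx⟩)
    · exact Or.inl (Or.inl hx)
    · rcases hg' with rfl | hg'
      · exact Or.inr hx
      · exact Or.inl (Or.inr ⟨g', hg', hx⟩)
  · rintro x ((hx | ⟨g', hg', hx⟩) | hx)
    · exact Or.inl hx
    · exact Or.inr ⟨g', Or.inr hg', hx⟩
    · exact Or.inr ⟨g, Or.inl rfl, hx⟩

/-- Either the piece of `g` is already there, or it meets the rest along `X0`. -/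
theorem PU_inter_Q {X0 : Set (A × Finset S)} {V : Finset S} {G : Set A} {g : A} :
    (Q D g V ⊆ PU D X0 V G) ∨ (PU D X0 V G ∩ Q D g V = X0 ∩ Q D g V) := by
  by_cases h : ∃ g' ∈ G, g'⁻¹ * g ∈ Par D V
  · obtain ⟨g', hg', hgg⟩ := h
    refine Or.inl fun x hx => Or.inr ⟨g', hg', coset_trans hgg hx.1, hx.2.1, hx.2.2⟩
  · refine Or.inr (Set.Subset.antisymm ?_ ?_)
    · rintro x ⟨hx | ⟨g', hg', hx⟩, hx2⟩
      · exact ⟨hx, hx2⟩
      · exact absurd ⟨g', hg', coset_trans hx.1 (coset_symm hx2.1)⟩ h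
    · rintro x ⟨hx, hx2⟩
      exact ⟨Or.inl hx, hx2⟩

theorem sUnion_PU {X0 : Set (A × Finset S)} {V : Finset S} {G : Set A} :
    PU D X0 V G = ⋃₀ {Y | ∃ F : Finset A, (F : Set A) ⊆ G ∧ Y = PU D X0 V F} := by
  apply Set.Subset.antisymm
  · rintro x (hx | ⟨g, hg, hx⟩)
    · exact mem_sUnion.2 ⟨_, ⟨∅, by simp, rfl⟩, Or.inl hx⟩
    · exact mem_sUnion.2 ⟨_, ⟨{g}, by simpa using hg, rfl⟩, Or.inr ⟨g, by simp, hx⟩⟩
  · rintro x hx
    obtain ⟨Y, ⟨F, hF, rfl⟩, hx⟩ := mem_sUnion.1 hx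
    exact PU_mono hF hx

theorem directed_PU {X0 : Set (A × Finset S)} {V : Finset S} {G : Set A} :
    DirectedOn (· ⊆ ·) {Y | ∃ F : Finset A, (F : Set A) ⊆ G ∧ Y = PU D X0 V F} := by
  classical
  rintro _ ⟨F, hF, rfl⟩ _ ⟨F', hF', rfl⟩
  refine ⟨_, ⟨F ∪ F', ?_, rfl⟩, PU_mono ?_, PU_mono ?_⟩
  · rw [Finset.coe_union]; exact union_subset hF hF'
  · rw [Finset.coe_union]; exact subset_union_left
  · rw [Finset.coe_union]; exact subset_union_right

/-- Attaching pieces along good intersections, `W` version. -/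
theorem W_PU (T : GoodTheory D) {X0 : Set (A × Finset S)} (h0 : Sat D X0) {V : Finset S}
    {G : Set A} (hW : T.W X0) (hQ : ∀ g ∈ G, T.W (Q D g V))
    (hint : ∀ g ∈ G, T.W (X0 ∩ Q D g V)) : T.W (PU D X0 V G) := by
  classical
  have key : ∀ F : Finset A, (F : Set A) ⊆ G → T.W (PU D X0 V F) := by
    intro F
    induction F using Finset.induction_on with
    | empty => intro _; rw [Finset.coe_empty, PU_empty]; exact hW
    | @insert g F _ ih =>
      intro hF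
      rw [Finset.coe_insert] at hF ⊢
      have hg : g ∈ G := hF (mem_insert _ _)
      have hF' := ih ((subset_insert _ _).trans hF)
      rw [PU_insert]
      rcases PU_inter_Q (D := D) (X0 := X0) (V := V) (G := (F : Set A)) (g := g) with h | h
      · rw [union_eq_self_of_subset_right h]; exact hF'
      · refine T.union _ _ (sat_PU h0 V _) (sat_Q D g V) hF' (hQ g hg) ?_
        rw [h]; exact hint g hg
  rw [sUnion_PU]
  refine T.dir _ ⟨_, ∅, by simp, rfl⟩ directed_PU ?_ ?_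
  · rintro _ ⟨F, hF, rfl⟩; exact sat_PU h0 V _
  · rintro _ ⟨F, hF, rfl⟩; exact key F hF

/-- Attaching pieces along good intersections, `E` version. -/
theorem E_PU (T : GoodTheory D) {X0 : Set (A × Finset S)} (h0 : Sat D X0) {V : Finset S}
    {G : Set A} (hQ : ∀ g ∈ G, T.W (Q D g V))
    (hint : ∀ g ∈ G, T.W (X0 ∩ Q D g V)) : T.E X0 (PU D X0 V G) := by
  classical
  have key : ∀ F : Finset A, (F : Set A) ⊆ G → T.E X0 (PU D X0 V F) := by
    intro F
    induction F using Finset.induction_on with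
    | empty => intro _; rw [Finset.coe_empty, PU_empty]; exact T.E_refl _ h0
    | @insert g F _ ih =>
      intro hF
      rw [Finset.coe_insert] at hF ⊢
      have hg : g ∈ G := hF (mem_insert _ _)
      have hF' := ih ((subset_insert _ _).trans hF)
      rw [PU_insert]
      rcases PU_inter_Q (D := D) (X0 := X0) (V := V) (G := (F : Set A)) (g := g) with h | h
      · rw [union_eq_self_of_subset_right h]; exact hF'
      · refine T.E_trans _ _ _ h0 (sat_PU h0 V _) (sat_union (sat_PU h0 V _) (sat_Q D g V))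
          subset_PU subset_union_left hF' ?_
        refine T.E_attach _ _ (sat_PU h0 V _) (sat_Q D g V) (hQ g hg) ?_
        rw [h]; exact hint g hg
  rw [sUnion_PU]
  refine T.E_dir _ _ ⟨_, ∅, by simp, rfl⟩ directed_PU h0 ?_ ?_
  · rintro _ ⟨F, hF, rfl⟩; exact ⟨sat_PU h0 V _, subset_PU⟩
  · rintro _ ⟨F, hF, rfl⟩; exact key F hF

/-- Adding the vertices `(g, t)`, `g ∈ G`, of one type. -/
theorem XX_union_type {a : A} {U : Finset S} {X Z : Set (A × S)} {t : S} (ht : t ∈ U)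
    (hZ : Stable D a U Z) (hZt : ∀ p ∈ Z, p.2 = t) :
    XX D a U (X ∪ Z) = PU D (XX D a U X) (U.erase t) {g | (g, t) ∈ Z} := by
  apply Set.Subset.antisymm
  · intro x hx
    obtain ⟨h1, h2, h3, s, hs, hsT, hp | hp⟩ := hx
    · exact Or.inl ⟨h1, h2, h3, s, hs, hsT, hp⟩
    · have hst : s = t := hZt _ hp
      rw [hst] at hp hsT
      exact Or.inr ⟨x.1, hp, coset_refl _, subset_erase h2 hsT, h3⟩
  · rintro x (hx | ⟨g, hg, hx1, hx2, hx3⟩)
    · exact XX_mono subset_union_left hx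
    · have h5 := hZ g t hg
      exact ⟨coset_trans h5.1 (Par_erase_le D U t hx1), hx2.trans (Finset.erase_subset _ _), hx3,
        t, ht, fun h => Finset.notMem_erase t U (hx2 h), Or.inr (h5.2.2 x.1 hx1)⟩

variable (K : Key D)

/-- Negative vertices and the zeros with types in `R`. -/
def NZ (a : A) (U : Finset S) (n : S → ℤ) (ρ : S → ℝ) (R : Finset S) : Set (A × S) :=
  Neg K a U n ρ ∪ {p | p ∈ Zer K a U n ρ ∧ p.2 ∈ R}

theorem NZ_stable (a : A) (U : Finset S) (n : S → ℤ) (ρ : S → ℝ) (R : Finset S) :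
    Stable D a U (NZ K a U n ρ R) :=
  (Neg_stable K a U n ρ).union ((Zer_stable K a U n ρ).sep _)

theorem NZ_empty (a : A) (U : Finset S) (n : S → ℤ) (ρ : S → ℝ) :
    NZ K a U n ρ ∅ = Neg K a U n ρ := by
  simp [NZ]

theorem NZ_insert (a : A) (U : Finset S) (n : S → ℤ) (ρ : S → ℝ) (R : Finset S) (t : S) :
    NZ K a U n ρ (insert t R) = NZ K a U n ρ R ∪ {p | p ∈ Zer K a U n ρ ∧ p.2 = t} := by
  apply Set.Subset.antisymm
  · rintro p (hp | ⟨hp, hp2⟩)
    · exact Or.inl (Or.inl hp)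
    · rcases Finset.mem_insert.1 hp2 with h | h
      · exact Or.inr ⟨hp, h⟩
      · exact Or.inl (Or.inr ⟨hp, h⟩)
  · rintro p ((hp | ⟨hp, hp2⟩) | ⟨hp, hp2⟩)
    · exact Or.inl hp
    · exact Or.inr ⟨hp, Finset.mem_insert_of_mem hp2⟩
    · exact Or.inr ⟨hp, Finset.mem_insert.2 (Or.inl hp2)⟩

theorem zer_not_NZ {a : A} {U : Finset S} {n : S → ℤ} {ρ : S → ℝ} {R : Finset S} {g : A} {t : S}
    (hz : (g, t) ∈ Zer K a U n ρ) (ht : t ∉ R) : (g, t) ∉ NZ K a U n ρ R := by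
  rintro (hp | ⟨_, hp⟩)
  · have h1 : K.F g (n t) t < ρ t := hp.2.2.2
    have h2 : K.F g (n t) t = ρ t := hz.2.2.2
    linarith
  · exact ht hp

/-- The set of the link. -/
theorem XX_NZ_link {a g : A} {U : Finset S} (n : S → ℤ) (ρ : S → ℝ) (R : Finset S)
    (hg : a⁻¹ * g ∈ Par D U) {t : S} :
    XX D g (U.erase t) (NZ K a U n ρ R) = XX D g (U.erase t) (NZ K g (U.erase t) n ρ R) := by
  apply Set.Subset.antisymm
  · intro x hx
    obtain ⟨h1, h2, h3, s, hs, hsT, hp⟩ := hx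
    refine ⟨h1, h2, h3, s, hs, hsT, ?_⟩
    rcases hp with hp | ⟨hp, hp2⟩
    · exact Or.inl ((Neg_link K n ρ hg _).2 ⟨hp, h1, hs⟩)
    · exact Or.inr ⟨(Zer_link K n ρ hg _).2 ⟨hp, h1, hs⟩, hp2⟩
  · refine XX_mono ?_
    rintro p (hp | ⟨hp, hp2⟩)
    · exact Or.inl ((Neg_link K n ρ hg _).1 hp).1
    · exact Or.inr ⟨((Zer_link K n ρ hg _).1 hp).1, hp2⟩

/-- One type step: the new set is `X0` with pieces, and the intersections are the link sets. -/
theorem type_step {a : A} {U : Finset S} (n : S → ℤ) (ρ : S → ℝ) {R : Finset S} {t : S}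
    (ht : t ∈ U) (htR : t ∉ R) :
    XX D a U (NZ K a U n ρ (insert t R)) =
      PU D (XX D a U (NZ K a U n ρ R)) (U.erase t) {g | (g, t) ∈ Zer K a U n ρ} ∧
    ∀ g, (g, t) ∈ Zer K a U n ρ → XX D a U (NZ K a U n ρ R) ∩ Q D g (U.erase t) =
      XX D g (U.erase t) (NZ K g (U.erase t) n ρ R) := by
  constructor
  · rw [NZ_insert, XX_union_type ht ((Zer_stable K a U n ρ).sep (fun s => s = t))
      (fun p hp => hp.2)]
    congr 1
    ext g
    exact ⟨fun h => h.1, fun h => ⟨h, rfl⟩⟩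
  · intro g hg
    rw [XX_inter_Q (NZ_stable K a U n ρ R) hg.1 ht (zer_not_NZ K hg htR), XX_NZ_link K n ρ R hg.1]

end Vale.Agent.P203.Bot
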