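import Vale.Agent.P203.Bot.Base

/-!
# The connectedness theory, as a good theory; the sets `Q a U` are connected
-/

namespace Vale.Agent.P203.Bot

open Set Vale.Agent.P203.Morse

variable {S A : Type} [Fintype S] [DecidableEq S] [Group A]

/-- The theory of connected components. -/
def zigTheory (D : Data S A) : GoodTheory D where
  W := W0 (face D)
  E := E0 (face D)
  union X Y hX hY h1 h2 h3 := h1.union h2 h3.1
  dir X hne hd _ h := W0.sUnion hne hd h
  E_refl X _ := E0.refl X
  E_trans X Y Z _ _ _ h1 _ h2 h3 := h2.trans h1 h3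
  E_attach X Y hX hY _ h := E0_union (low_of_sat hX) (low_of_sat hY)
    fun x hx y hy => (h.2 x hx y hy).mono inter_subset_left
  E_dir P X hne hd _ _ h := by
    obtain ⟨X0, hX0⟩ := hne
    exact E0_sUnion hd P X0 hX0 fun Y hY _ => h Y hY
  E_back X Y _ _ hne h1 h2 h3 := h2.W0 hne h1 h3

/-- `Q a U` is connected. -/
theorem W0_Q (D : Data S A) (a : A) (U : Finset S) : W0 (face D) (Q D a U) := by
  have hmem : ∀ x ∈ Par D U, ((a * x, ∅) : A × Finset S) ∈ Q D a U := fun x hx =>
    ⟨by simpa using hx, Finset.empty_subset _, D.sph_empty⟩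
  have hstep : ∀ s ∈ U, ∀ g : A, a⁻¹ * g ∈ Par D U →
      Joined (face D) (Q D a U) (g, ∅) (g * D.σ s, ∅) := by
    intro s hs g hg
    have hsσ : D.σ s ∈ Par D ({s} : Finset S) := Subgroup.subset_closure ⟨s, by simp, rfl⟩
    have h0 : ((g, {s}) : A × Finset S) ∈ Q D a U :=
      ⟨hg, by simpa using hs, D.sph_singleton s⟩
    have h1 : ((g, ∅) : A × Finset S) ∈ Q D a U := ⟨hg, Finset.empty_subset _, D.sph_empty⟩
    have h2 : ((g * D.σ s, ∅) : A × Finset S) ∈ Q D a U := by
      refine ⟨?_, Finset.empty_subset _, D.sph_empty⟩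
      change a⁻¹ * (g * D.σ s) ∈ Par D U
      rw [← mul_assoc]
      exact mul_mem hg (Par_mono D (by simpa using hs) hsσ)
    have h3 : face D ((g, ∅) : A × Finset S) (g, {s}) :=
      ⟨Finset.empty_subset _, by simp [one_mem]⟩
    have h4 : face D ((g * D.σ s, ∅) : A × Finset S) (g, {s}) :=
      ⟨Finset.empty_subset _, by simpa using hsσ⟩
    exact (Joined.of_le h1 h0 h3).trans (Joined.of_ge h0 h2 h4)
  have key : ∀ x ∈ Par D U, ∀ g : A, a⁻¹ * g ∈ Par D U →
      Joined (face D) (Q D a U) (g, ∅) (g * x, ∅) := by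
    intro x hx
    induction hx using Subgroup.closure_induction with
    | mem x hx =>
      obtain ⟨s, hs, rfl⟩ := hx
      exact fun g hg => hstep s (by simpa using hs) g hg
    | one => intro g _; rw [mul_one]; exact Joined.refl _
    | mul x y hx' _ hx hy =>
      intro g hg
      rw [← mul_assoc]
      refine (hx g hg).trans (hy (g * x) ?_)
      rw [← mul_assoc]; exact mul_mem hg hx'
    | inv x hx' hx =>
      intro g hg
      have h := hx (g * x⁻¹) (by rw [← mul_assoc]; exact mul_mem hg (inv_mem hx'))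
      rw [inv_mul_cancel_right] at h
      exact h.symm
  have hall : ∀ x ∈ Q D a U, Joined (face D) (Q D a U) (a, ∅) x := by
    rintro ⟨g, T⟩ hx
    have h1 := key (a⁻¹ * g) hx.1 a (by simp [one_mem])
    rw [mul_inv_cancel_left] at h1
    refine h1.trans (Joined.of_le ⟨hx.1, Finset.empty_subset _, D.sph_empty⟩ hx
      ⟨Finset.empty_subset _, ?_⟩)
    simp [one_mem]
  refine ⟨⟨(a, ∅), by simp [one_mem], Finset.empty_subset _, D.sph_empty⟩, ?_⟩
  intro x hx y hy
  exact (hall x hx).symm.trans (hall y hy)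

end Vale.Agent.P203.Bot
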